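import Vale.Agent.Lib.P143.Main

namespace Vale.Agent.Results.P143.FiniteBlocks

open Vale.Agent.Lib.P143

/-- If `S` is finite and every block of the Cayley graph of `Γ` with respect to `S` is finite
(there is an equivalence relation on unordered pairs with finite classes that relates any two
edges lying on a common cycle), then the free uniform spanning forest of the Cayley graph is a
`Γ`-factor of IID. -/
theorem result {Γ : Type*} [Group Γ] (S : Set Γ) (hS : S.Finite)
    (hblk : ∃ r : Sym2 Γ → Sym2 Γ → Prop, Equivalence r ∧ (∀ e, {f | r e f}.Finite) ∧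
      ∀ (v : Γ) (c : (cayley S).Walk v v), c.IsCycle → ∀ e ∈ c.edges, ∀ f ∈ c.edges, r e f) :
    FUSFIsFactorOfIID S :=
  fusf_factor_of_finite_classes S hS hblk

end Vale.Agent.Results.P143.FiniteBlocks
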