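import Vale.Agent.Lib.P143.Tree

namespace Vale.Agent.Results.P143.TreeCayley

open Vale.Agent.Lib.P143

/-- If the Cayley graph of `Γ` with respect to `S` is a tree (acyclic), then its free uniform
spanning forest is a `Γ`-factor of IID. -/
theorem result {Γ : Type*} [Group Γ] (S : Set Γ) (hacyc : (cayley S).IsAcyclic) :
    FUSFIsFactorOfIID S :=
  fusf_factor_of_isAcyclic S hacyc

end Vale.Agent.Results.P143.TreeCayley
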